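import Vale.Agent.P022.H619.Hnp
import Vale.Agent.P022.H567.Cft

/-!
[HNTP] in the letters of `H567/Cft.lean`.
-/

open NumberField IsDedekindDomain Module TensorProduct

namespace Vale.Agent.P022.H619

theorem isGalois_of_cyc {K L : Type} [Field K] [Field L] [Algebra K L] {n : ℕ} {σ : L ≃ₐ[K] L}
    (h : C.Cyc K n σ) : FiniteDimensional K L ∧ IsGalois K L ∧
      (∀ g : L ≃ₐ[K] L, g ∈ Subgroup.zpowers σ) := by
  have hfd : FiniteDimensional K L := FiniteDimensional.of_finrank_pos (by rw [h.rank]; exact h.pos)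
  have h1 : Nat.card (L ≃ₐ[K] L) ≤ finrank K L := by
    rw [Nat.card_eq_fintype_card]; exact AlgEquiv.card_le
  have h2 : Nat.card (Subgroup.zpowers σ) = n := by rw [Nat.card_zpowers, h.ord]
  have h3 : Nat.card (Subgroup.zpowers σ) ≤ Nat.card (L ≃ₐ[K] L) :=
    Subgroup.card_le_card_group _
  have h4 : Nat.card (L ≃ₐ[K] L) = n := by
    rw [h.rank] at h1; omega
  refine ⟨hfd, IsGalois.of_card_aut_eq_finrank K L (by rw [h4, h.rank]), ?_⟩
  have h5 : Subgroup.zpowers σ = ⊤ := Subgroup.eq_top_of_card_eq _ (by rw [h2, h4])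
  intro g
  rw [h5]
  exact Subgroup.mem_top g

theorem HNTP : C.HNTPStmt := by
  intro K L _ _ _ _ _ p hp σ hσ a ha hloc
  obtain ⟨_, _, hgen⟩ := isGalois_of_cyc hσ
  have hcard : Fintype.card (L ≃ₐ[K] L) = p := by
    rw [← Nat.card_eq_fintype_card, IsGalois.card_aut_eq_finrank, hσ.rank]
  have hln : ∀ (R : Type) [Field R] [Algebra K R], C.Nm σ p R a → LN R L a := by
    intro R _ _ h
    obtain ⟨y, hy⟩ := h
    refine ⟨y, ?_⟩
    rw [prod_cyclic hgen hcard]
    exact hy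
  obtain ⟨y, hy⟩ := hnp hp hσ.rank a ha (fun v => hln _ (hloc.1 v)) (fun _ φ => by
    let _ := φ.toAlgebra
    exact hln ℝ (hloc.2 φ))
  refine ⟨y, ?_⟩
  rw [← hy, Algebra.norm_eq_prod_automorphisms, prod_cyclic hgen hcard]

end Vale.Agent.P022.H619
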