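import Vale.Agent.P022.H619.HnpC
import Vale.Agent.P022.H218.HnpSet

/-!
The Hasse norm theorem for cyclic extensions of prime degree.
-/

open NumberField IsDedekindDomain Module TensorProduct

namespace Vale.Agent.P022.H619

/-- **Hasse norm theorem, prime degree.** -/
theorem hnp {K L : Type} [Field K] [NumberField K] [Field L] [NumberField L]
    [Algebra K L] [IsGalois K L] {l : ℕ} (hl : l.Prime) (hd : finrank K L = l)
    (α : K) (hα : α ≠ 0)
    (hf : ∀ v : HeightOneSpectrum (𝓞 K), LN (v.adicCompletion K) L α)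
    (hr : l = 2 → ∀ φ : K →+* ℝ, letI := φ.toAlgebra; LN ℝ L α) :
    ∃ y : L, Algebra.norm K y = α :=
  hnp_of_setup hl hd (H218.setup hl hd) α hα hf hr

end Vale.Agent.P022.H619
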