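import Mathlib

/-!
Transport of a local norm along a base change, for a cyclic Kummer extension.
-/

open Polynomial Module TensorProduct

namespace Vale.Agent.P022.H619

section act

variable {K : Type*} [Field K] (R : Type*) [CommRing R] [Algebra K R] {L : Type*} [Field L]
  [Algebra K L]

/-- The action of an automorphism on the base change. -/
noncomputable def act (g : L ≃ₐ[K] L) : R ⊗[K] L ≃ₐ[R] R ⊗[K] L :=
  Algebra.TensorProduct.congr AlgEquiv.refl g

theorem act_tmul (g : L ≃ₐ[K] L) (r : R) (x : L) : act R g (r ⊗ₜ x) = r ⊗ₜ g x := by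
  simp [act]

theorem act_mul (g h : L ≃ₐ[K] L) (z : R ⊗[K] L) : act R (g * h) z = act R g (act R h z) := by
  induction z with
  | zero => simp
  | tmul r x => simp [act_tmul]
  | add x y hx hy => simp [hx, hy]

theorem act_one (z : R ⊗[K] L) : act R (1 : L ≃ₐ[K] L) z = z := by
  induction z with
  | zero => simp
  | tmul r x => simp [act_tmul]
  | add x y hx hy => simp [hx, hy]

theorem act_pow (g : L ≃ₐ[K] L) (n : ℕ) (z : R ⊗[K] L) : act R (g ^ n) z = (act R g)^[n] z := by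
  induction n with
  | zero => simp [act_one]
  | succ n ih => rw [pow_succ', act_mul, ih, Function.iterate_succ_apply']

end act

/-- A product over a cyclic group. -/
theorem prod_cyclic {G M : Type*} [Group G] [Fintype G] [CommMonoid M] {s : G} {l : ℕ}
    (hs : ∀ g : G, g ∈ Subgroup.zpowers s) (hl : Fintype.card G = l) (f : G → M) :
    ∏ g : G, f g = ∏ i ∈ Finset.range l, f (s ^ i) := by
  classical
  have ho : orderOf s = l := by rw [orderOf_eq_card_of_forall_mem_zpowers hs, Nat.card_eq_fintype_card, hl]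
  rw [← ho]
  symm
  refine Finset.prod_bij (fun i _ => s ^ i) (fun _ _ => Finset.mem_univ _) ?_ ?_ (fun _ _ => rfl)
  · intro i hi j hj hij
    exact pow_injOn_Iio_orderOf (Finset.mem_range.mp hi) (Finset.mem_range.mp hj) hij
  · intro g _
    obtain ⟨i, hi⟩ := (mem_zpowers_iff_mem_range_orderOf (x := s) (y := g)).mp (hs g) |> Finset.mem_image.mp
    exact ⟨i, hi.1, hi.2⟩

section rot

variable {R : Type*} [CommRing R] (l : ℕ) (a ζ : R) (hζ : ζ ^ l = 1)

/-- The rotation of `R[X] / (X ^ l - a)`. -/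
noncomputable def rot : AdjoinRoot (X ^ l - C a : R[X]) →+* AdjoinRoot (X ^ l - C a : R[X]) :=
  AdjoinRoot.lift (AdjoinRoot.of _) (AdjoinRoot.of _ ζ * AdjoinRoot.root _) (by
    have h := AdjoinRoot.eval₂_root (X ^ l - C a : R[X])
    rw [eval₂_sub, eval₂_X_pow, eval₂_C] at h ⊢
    rw [mul_pow, ← map_pow, hζ, map_one, one_mul, h])

theorem rot_of (c : R) : rot l a ζ hζ (AdjoinRoot.of _ c) = AdjoinRoot.of _ c := by
  rw [rot, AdjoinRoot.lift_of]

theorem rot_root : rot l a ζ hζ (AdjoinRoot.root _) = AdjoinRoot.of _ ζ * AdjoinRoot.root _ := by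
  rw [rot, AdjoinRoot.lift_root]

theorem rot_mk (h : R[X]) : rot l a ζ hζ (AdjoinRoot.mk _ h) =
    AdjoinRoot.mk _ (h.comp (C ζ * X)) := by
  induction h using Polynomial.induction_on' with
  | add p q hp hq => rw [map_add, map_add, hp, hq, add_comp, map_add]
  | monomial n c =>
    rw [← C_mul_X_pow_eq_monomial, map_mul, map_mul, map_pow, map_pow, AdjoinRoot.mk_C,
      AdjoinRoot.mk_X, rot_of, rot_root, mul_comp, C_comp, X_pow_comp, map_mul, map_pow, map_mul,
      AdjoinRoot.mk_C, AdjoinRoot.mk_C, AdjoinRoot.mk_X]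

theorem rot_iter (h : R[X]) (i : ℕ) : (rot l a ζ hζ)^[i] (AdjoinRoot.mk _ h) =
    AdjoinRoot.mk _ (h.comp (C (ζ ^ i) * X)) := by
  induction i with
  | zero => simp
  | succ i ih =>
    rw [Function.iterate_succ_apply', ih, rot_mk, comp_assoc]
    congr 2
    rw [mul_comp, C_comp, X_comp, pow_succ, C_mul, mul_assoc]

end rot

/-- **Transport of a local norm.** -/
theorem transport {K L F : Type*} [Field K] [Field L] [Field F] [Algebra K L] [Algebra K F]
    {l : ℕ} {a ζ : F} (hζ : ζ ^ l = 1)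
    (ψ : L →ₐ[K] AdjoinRoot (X ^ l - C a : F[X])) (σ : L ≃ₐ[K] L)
    (hψ : ∀ x, ψ (σ x) = rot l a ζ hζ (ψ x))
    {R₀ R : Type*} [CommRing R₀] [Algebra K R₀] [CommRing R] (ι : F →+* R) (r : R₀ →+* R)
    (hr : ∀ c : K, r (algebraMap K R₀ c) = ι (algebraMap K F c))
    (z : R₀ ⊗[K] L) (α : K)
    (hz : ∏ i ∈ Finset.range l, (act R₀ σ)^[i] z = algebraMap K _ α) :
    ∃ h : R[X], (X ^ l - C (ι a)) ∣
      (∏ i ∈ Finset.range l, h.comp (C (ι ζ ^ i) * X)) - C (ι (algebraMap K F α)) := by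
  let _ : Algebra K R := (ι.comp (algebraMap K F)).toAlgebra
  have hKR : ∀ c : K, algebraMap K R c = ι (algebraMap K F c) := fun _ => rfl
  set Q := AdjoinRoot (X ^ l - C (ι a) : R[X]) with hQ
  have hζR : ι ζ ^ l = 1 := by rw [← map_pow, hζ, map_one]
  -- the map from `F[X]/(X^l - a)`
  let Ψ : AdjoinRoot (X ^ l - C a : F[X]) →+* Q :=
    AdjoinRoot.lift ((AdjoinRoot.of _).comp ι) (AdjoinRoot.root _) (by
      have h := AdjoinRoot.eval₂_root (X ^ l - C (ι a) : R[X])
      rw [eval₂_sub, eval₂_X_pow, eval₂_C] at h ⊢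
      rw [RingHom.comp_apply, h])
  have hΨ_of : ∀ c : F, Ψ (AdjoinRoot.of _ c) = AdjoinRoot.of _ (ι c) := fun c => by
    simp only [Ψ, AdjoinRoot.lift_of, RingHom.comp_apply]
  have hΨ_root : Ψ (AdjoinRoot.root _) = AdjoinRoot.root _ := by
    simp only [Ψ, AdjoinRoot.lift_root]
  have hΨ_rot : ∀ x, Ψ (rot l a ζ hζ x) = rot l (ι a) (ι ζ) hζR (Ψ x) := by
    intro x
    have : Ψ.comp (rot l a ζ hζ) = (rot l (ι a) (ι ζ) hζR).comp Ψ := by
      ext c
      · simp [rot_of, hΨ_of]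
      · simp [rot_root, hΨ_root, hΨ_of]
    exact congrArg (fun f => f x) this
  let f1 : R₀ →ₐ[K] Q := AlgHom.mk ((AdjoinRoot.of _).comp r) (fun c => by
    change AdjoinRoot.of _ (r (algebraMap K R₀ c)) = algebraMap K Q c
    rw [hr]
    rfl)
  let f2 : L →ₐ[K] Q := AlgHom.mk (Ψ.comp (ψ : L →+* _)) (fun c => by
    change Ψ (ψ (algebraMap K L c)) = algebraMap K Q c
    rw [ψ.commutes]
    exact hΨ_of _)
  let Φ : R₀ ⊗[K] L →ₐ[K] Q := Algebra.TensorProduct.lift f1 f2 (fun _ _ => Commute.all _ _)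
  have hΦ : ∀ x, Φ (act R₀ σ x) = rot l (ι a) (ι ζ) hζR (Φ x) := by
    intro x
    induction x with
    | zero => simp
    | tmul c y =>
      have e1 : ∀ c y, Φ (c ⊗ₜ y) = AdjoinRoot.of _ (r c) * Ψ (ψ y) := fun c y =>
        Algebra.TensorProduct.lift_tmul _ _ _ _ _
      rw [act_tmul, e1, e1, map_mul, rot_of, hψ, hΨ_rot]
    | add x y hx hy => rw [map_add, map_add, map_add, map_add, hx, hy]
  have hΦi : ∀ (i : ℕ) x, Φ ((act R₀ σ)^[i] x) = (rot l (ι a) (ι ζ) hζR)^[i] (Φ x) := by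
    intro i
    induction i with
    | zero => intro x; rfl
    | succ i ih => intro x; rw [Function.iterate_succ_apply', hΦ, ih, Function.iterate_succ_apply']
  obtain ⟨h, hh⟩ := AdjoinRoot.mk_surjective (g := (X ^ l - C (ι a) : R[X])) (Φ z)
  refine ⟨h, ?_⟩
  rw [← AdjoinRoot.mk_eq_mk, map_prod, AdjoinRoot.mk_C]
  have h1 := congrArg Φ hz
  rw [map_prod, AlgHom.commutes] at h1
  rw [← hKR]
  change _ = algebraMap K Q α
  rw [← h1]
  refine Finset.prod_congr rfl fun i _ => ?_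
  rw [hΦi, ← hh, rot_iter]

end Vale.Agent.P022.H619
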