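import Vale.Agent.P011.W.LocNorm
import Vale.Agent.P011.W.Compl
import Vale.Agent.P022.H619.HnpA

/-!
The Hasse norm theorem for cyclic extensions of prime degree, from the Kummer case.
-/

open NumberField IsDedekindDomain Polynomial Module TensorProduct IntermediateField

namespace Vale.Agent.P022.H619

/-- The base change `R ⊗ L` contains an element of norm `α`. -/
def LN {K : Type*} [Field K] (R : Type*) [CommRing R] [Algebra K R] (L : Type*) [Field L]
    [Algebra K L] [FiniteDimensional K L] (α : K) : Prop :=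
  ∃ y : R ⊗[K] L, ∏ g : L ≃ₐ[K] L, act R g y = algebraMap K (R ⊗[K] L) α

section kummer

variable {K L E : Type} [Field K] [Field L] [Field E] [Algebra K L] [Algebra K E] [Algebra L E]
  [IsScalarTower K L E] (F : IntermediateField K E)

/-- The inverse Kummer parametrization. -/
theorem exists_psi {l : ℕ} (hl : l.Prime) (σ : L ≃ₐ[K] L) (s : E ≃ₐ[F] E) (ζ a : F) (θ : E)
    (hs : ∀ x : L, s (algebraMap L E x) = algebraMap L E (σ x)) (hζ : ζ ^ l = 1)
    (hθa : θ ^ l = algebraMap F E a) (hsθ : s θ = algebraMap F E ζ * θ)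
    (hEF : finrank F E = l) (hθ : F⟮θ⟯ = ⊤) :
    ∃ ψ : L →ₐ[K] AdjoinRoot (X ^ l - C a : F[X]), ∀ x, ψ (σ x) = rot l a ζ hζ (ψ x) := by
  have hmon : (X ^ l - C a : F[X]).Monic := monic_X_pow_sub_C a hl.ne_zero
  let Θ : AdjoinRoot (X ^ l - C a : F[X]) →ₐ[F] E :=
    AdjoinRoot.liftAlgHom _ (Algebra.ofId F E) θ (by
      rw [eval₂_sub, eval₂_X_pow, eval₂_C, hθa]
      exact sub_self _)
  have hΘ_of : ∀ c : F, Θ (AdjoinRoot.of _ c) = algebraMap F E c := fun c => Θ.commutes c
  have hΘ_root : Θ (AdjoinRoot.root _) = θ := by simp [Θ]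
  have : FiniteDimensional F E := FiniteDimensional.of_finrank_pos (by rw [hEF]; exact hl.pos)
  have hfin : finrank F (AdjoinRoot (X ^ l - C a : F[X])) = l := by
    rw [(AdjoinRoot.powerBasis' hmon).finrank, AdjoinRoot.powerBasis'_dim, natDegree_X_pow_sub_C]
  have : Module.Finite F (AdjoinRoot (X ^ l - C a : F[X])) := hmon.finite_adjoinRoot
  have hsurj : Function.Surjective Θ := by
    have h1 : (⊤ : Subalgebra F E) ≤ Θ.range := by
      have h2 : (F⟮θ⟯).toSubalgebra = Algebra.adjoin F {θ} :=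
        IntermediateField.adjoin_simple_toSubalgebra_of_isAlgebraic (Algebra.IsAlgebraic.isAlgebraic θ)
      rw [hθ, IntermediateField.top_toSubalgebra] at h2
      rw [h2]
      refine Algebra.adjoin_le ?_
      rintro x rfl
      exact ⟨_, hΘ_root⟩
    intro x
    exact h1 Algebra.mem_top
  have hinj : Function.Injective Θ := by
    have h1 : finrank F (AdjoinRoot (X ^ l - C a : F[X])) = finrank F E := by rw [hfin, hEF]
    exact (LinearMap.injective_iff_surjective_of_finrank_eq_finrank (f := Θ.toLinearMap) h1).mpr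
      hsurj
  let e : AdjoinRoot (X ^ l - C a : F[X]) ≃ₐ[F] E := AlgEquiv.ofBijective Θ ⟨hinj, hsurj⟩
  have he : ∀ x, e x = Θ x := fun _ => rfl
  have hrot : ∀ y, Θ (rot l a ζ hζ y) = s (Θ y) := by
    intro y
    have : (Θ : _ →+* E).comp (rot l a ζ hζ) = (s : E →+* E).comp (Θ : _ →+* E) := by
      ext c
      · change Θ (rot l a ζ hζ (AdjoinRoot.of _ c)) = s (Θ (AdjoinRoot.of _ c))
        rw [rot_of, hΘ_of, s.commutes]
      · simp [rot_root, hΘ_of, hΘ_root, hsθ]
    exact congrArg (fun f => f y) this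
  refine ⟨((e.symm : E →ₐ[F] _).restrictScalars K).comp (IsScalarTower.toAlgHom K L E), ?_⟩
  intro x
  apply hinj
  have h1 : ∀ x : L, Θ ((((e.symm : E →ₐ[F] _).restrictScalars K).comp
      (IsScalarTower.toAlgHom K L E)) x) = algebraMap L E x := by
    intro x
    exact e.apply_symm_apply _
  rw [hrot, h1, h1, hs]

end kummer

/-- The descent. -/
theorem descent {K L E : Type} [Field K] [Field L] [Field E] [Algebra K L] [Algebra K E]
    [Algebra L E] [IsScalarTower K L E] [FiniteDimensional K L] [IsGalois K L]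
    [FiniteDimensional L E] [IsGalois L E]
    {l : ℕ} (hd : finrank K L = l) (σ : L ≃ₐ[K] L)
    (hgen : ∀ g : L ≃ₐ[K] L, g ∈ Subgroup.zpowers σ) (s : E →+* E)
    (hs : ∀ x : L, s (algebraMap L E x) = algebraMap L E (σ x))
    (hcomm : ∀ (g : E ≃ₐ[L] E) (x : E), g (s x) = s (g x))
    (hcop : (finrank L E).Coprime l) (α : K) (hα : α ≠ 0) (y : E)
    (hy : ∏ i ∈ Finset.range l, s^[i] y = algebraMap K E α) :
    ∃ y : L, Algebra.norm K y = α := by
  classical
  have hcard : Fintype.card (L ≃ₐ[K] L) = l := by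
    rw [← Nat.card_eq_fintype_card, IsGalois.card_aut_eq_finrank, hd]
  have hsi : ∀ (i : ℕ) (x : L), s^[i] (algebraMap L E x) = algebraMap L E ((σ ^ i) x) := by
    intro i
    induction i with
    | zero => intro x; rfl
    | succ i ih =>
      intro x
      rw [Function.iterate_succ_apply', ih, hs, pow_succ', AlgEquiv.mul_apply]
  have hgi : ∀ (g : E ≃ₐ[L] E) (i : ℕ) (x : E), g (s^[i] x) = s^[i] (g x) := by
    intro g i
    induction i with
    | zero => intro x; rfl
    | succ i ih =>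
      intro x
      rw [Function.iterate_succ_apply', hcomm, ih, Function.iterate_succ_apply']
  have hsip : ∀ (i : ℕ) (f : (E ≃ₐ[L] E) → E), ∏ g, s^[i] (f g) = s^[i] (∏ g, f g) := by
    intro i f
    rw [← RingHom.coe_pow, map_prod]
  set x : L := Algebra.norm L y with hx
  have h1 : Algebra.norm K x = α ^ finrank L E := by
    apply (algebraMap K E).injective
    rw [IsScalarTower.algebraMap_apply K L E, Algebra.norm_eq_prod_automorphisms,
      prod_cyclic hgen hcard, map_prod, map_pow]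
    have h2 : ∀ i, algebraMap L E ((σ ^ i) x) = ∏ g : E ≃ₐ[L] E, g (s^[i] y) := by
      intro i
      rw [← hsi, hx, Algebra.norm_eq_prod_automorphisms, ← hsip]
      exact Finset.prod_congr rfl fun g _ => (hgi g i y).symm
    rw [Finset.prod_congr rfl fun i _ => h2 i, Finset.prod_comm]
    have h3 : ∀ g : E ≃ₐ[L] E, ∏ i ∈ Finset.range l, g (s^[i] y) = algebraMap K E α := by
      intro g
      rw [← map_prod, hy, IsScalarTower.algebraMap_apply K L E, g.commutes]
    rw [Finset.prod_congr rfl fun g _ => h3 g, Finset.prod_const, Finset.card_univ,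
      ← Nat.card_eq_fintype_card, IsGalois.card_aut_eq_finrank]
  have h2 : Algebra.norm K (algebraMap K L α) = α ^ l := by
    rw [Algebra.norm_algebraMap, hd]
  have hx0 : x ≠ 0 := by
    intro h
    rw [h, Algebra.norm_zero] at h1
    exact pow_ne_zero _ hα h1.symm
  have ha0 : algebraMap K L α ≠ 0 := (_root_.map_ne_zero _).mpr hα
  -- Bezout
  set N : Lˣ →* Kˣ := Units.map (Algebra.norm K : L →* K) with hN
  have h3 : N (Units.mk0 x hx0) = (Units.mk0 α hα) ^ finrank L E := by
    ext; exact h1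
  have h4 : N (Units.mk0 _ ha0) = (Units.mk0 α hα) ^ l := by
    ext; exact h2
  have hbez : ((finrank L E : ℕ) : ℤ) * Nat.gcdA (finrank L E) l + (l : ℤ) * Nat.gcdB (finrank L E) l = 1 := by
    rw [← Nat.gcd_eq_gcd_ab, hcop.gcd_eq_one]; rfl
  have h5 : N ((Units.mk0 x hx0) ^ Nat.gcdA (finrank L E) l *
      (Units.mk0 _ ha0) ^ Nat.gcdB (finrank L E) l) = Units.mk0 α hα := by
    rw [map_mul, map_zpow, map_zpow, h3, h4, ← zpow_natCast, ← zpow_natCast, ← zpow_mul,
      ← zpow_mul, ← zpow_add, hbez, zpow_one]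
  exact ⟨_, congrArg Units.val h5⟩

/-- The output of the field theory (`setup`). -/
def Setup (K L : Type) [Field K] [NumberField K] [Field L] [NumberField L] [Algebra K L]
    (l : ℕ) : Prop :=
  ∃ (E : Type) (_ : Field E) (_ : NumberField E) (_ : Algebra K E) (_ : Algebra L E)
    (_ : IsScalarTower K L E) (_ : IsGalois L E) (F : IntermediateField K E) (σ : L ≃ₐ[K] L)
    (s : E ≃ₐ[F] E) (ζ θ : E),
    (∀ g : L ≃ₐ[K] L, g ∈ Subgroup.zpowers σ) ∧
    (∀ x : L, s (algebraMap L E x) = algebraMap L E (σ x)) ∧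
    IsPrimitiveRoot ζ l ∧ ζ ∈ F ∧ θ ≠ 0 ∧ θ ^ l ∈ F ∧ s θ = ζ * θ ∧
    (∀ (g : E ≃ₐ[L] E) (x : E), g (s x) = s (g x)) ∧
    (finrank L E).Coprime l ∧ finrank F E = l ∧ F⟮θ⟯ = ⊤

/-- **Hasse norm theorem, prime degree.** -/
theorem hnp_of_setup {K L : Type} [Field K] [NumberField K] [Field L] [NumberField L]
    [Algebra K L] [IsGalois K L] {l : ℕ} (hl : l.Prime) (hd : finrank K L = l)
    (hset : Setup K L l) (α : K) (hα : α ≠ 0)
    (hf : ∀ v : HeightOneSpectrum (𝓞 K), LN (v.adicCompletion K) L α)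
    (hr : l = 2 → ∀ φ : K →+* ℝ, letI := φ.toAlgebra; LN ℝ L α) :
    ∃ y : L, Algebra.norm K y = α := by
  classical
  obtain ⟨E, _, _, _, _, _, _, F, σ, s, ζE, θ, hgen, hs, hζE, hζF, hθ0, hθl, hsθ, hcomm, hcop,
    hEF, hθ⟩ := hset
  have hcard : Fintype.card (L ≃ₐ[K] L) = l := by
    rw [← Nat.card_eq_fintype_card, IsGalois.card_aut_eq_finrank, hd]
  -- elements of `F`
  set ζ : F := ⟨ζE, hζF⟩ with hζd
  have hζ : IsPrimitiveRoot ζ l := by
    refine IsPrimitiveRoot.of_map_of_injective (f := algebraMap F E) ?_ (algebraMap F E).injective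
    exact hζE
  have ha0 : (⟨θ ^ l, hθl⟩ : F) ≠ 0 := by
    intro h
    exact pow_ne_zero l hθ0 (congrArg Subtype.val h)
  set a : Fˣ := Units.mk0 ⟨θ ^ l, hθl⟩ ha0 with had
  have hθa : θ ^ l = algebraMap F E (a : F) := rfl
  obtain ⟨ψ, hψ⟩ := exists_psi F hl σ s ζ (a : F) θ hs hζ.pow_eq_one hθa hsθ hEF hθ
  have hb0 : algebraMap K F α ≠ 0 := (_root_.map_ne_zero _).mpr hα
  set b : Fˣ := Units.mk0 (algebraMap K F α) hb0 with hbd
  -- the local norms in the form of a product over the powers of `σ`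
  have hprod : ∀ (R : Type) [CommRing R] [Algebra K R], LN R L α →
      ∃ z : R ⊗[K] L, ∏ i ∈ Finset.range l, (act R σ)^[i] z = algebraMap K _ α := by
    intro R _ _ h
    obtain ⟨z, hz⟩ := h
    refine ⟨z, ?_⟩
    rw [← hz, prod_cyclic hgen hcard]
    exact Finset.prod_congr rfl fun i _ => (act_pow R σ i z).symm
  have hsym := P011.W.hasse_symbol (F := F) hl hζ a b (fun w _ => by
      obtain ⟨v, hv⟩ := P011.Arith.exists_below (F := K) w
      obtain ⟨g, hg⟩ := P011.W.completion_map hv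
      obtain ⟨z, hz⟩ := hprod _ (hf v)
      exact transport hζ.pow_eq_one ψ σ hψ (algebraMap F (w.adicCompletion F)) g hg z α hz)
    (fun h2 φ _ => by
      let _ : Algebra K ℝ := (φ.comp (algebraMap K F)).toAlgebra
      obtain ⟨z, hz⟩ := hprod ℝ (hr h2 (φ.comp (algebraMap K F)))
      exact transport hζ.pow_eq_one ψ σ hψ φ (RingHom.id ℝ) (fun _ => rfl) z α hz)
  obtain ⟨h, q, hq⟩ := hsym
  refine descent hd σ hgen (s : E →+* E) hs hcomm hcop α hα (aeval θ h) ?_
  have h1 := congrArg (aeval θ) hq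
  rw [map_mul, map_sub, map_sub, map_pow, aeval_X, aeval_C, aeval_C, hθa, sub_self, zero_mul,
    sub_eq_zero, map_prod] at h1
  have h2 : algebraMap F E (b : F) = algebraMap K E α := rfl
  rw [← h2, ← h1]
  have hsi : ∀ i : ℕ, (s : E →+* E)^[i] (aeval θ h) = aeval (algebraMap F E ζ ^ i * θ) h := by
    intro i
    induction i with
    | zero => simp
    | succ i ih =>
      rw [Function.iterate_succ_apply', ih]
      change s (aeval (algebraMap F E ζ ^ i * θ) h) = _
      refine (Polynomial.aeval_algHom_apply (s : E →ₐ[F] E) _ h).symm.trans ?_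
      congr 2
      change s (algebraMap F E ζ ^ i * θ) = _
      rw [map_mul, map_pow, s.commutes, hsθ, pow_succ]
      change _ = algebraMap F E ζ ^ i * algebraMap F E ζ * θ
      rw [mul_assoc]; rfl
  refine Finset.prod_congr rfl fun i _ => ?_
  rw [hsi, aeval_comp]
  congr 1
  rw [map_mul, aeval_C, aeval_X, map_pow]

end Vale.Agent.P022.H619
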