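import Vale.Agent.P022.H619.Hnp
import Vale.Agent.P022.CF.Lit

/-!
[HNP] in the letters of `CF/Lit.lean`.
-/

open NumberField IsDedekindDomain Module TensorProduct

namespace Vale.Agent.P022.H619

theorem HNP : CF.HNPStmt := by
  intro K L _ _ _ _ _ _ l hl hd hK α hα hf
  refine hnp hl hd α hα hf ?_
  intro h2 φ
  exfalso
  have := hK h2
  have h1 := this.isComplex (InfinitePlace.mk ((Complex.ofRealHom).comp φ))
  rw [← InfinitePlace.not_isReal_iff_isComplex] at h1
  exact h1 ⟨_, by
    rw [ComplexEmbedding.isReal_iff]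
    ext x
    simp [ComplexEmbedding.conjugate_coe_eq], rfl⟩

end Vale.Agent.P022.H619
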